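import Claimed.Agent.R314.C.SV.Exit
import Claimed.Agent.R314.Bus.Seg

/-!
# Row 314, block C, package BUS (architect helper111): EXIT CONTRACTS  (statements: helper97, chief C, after helper111 / helper195)

Busemann functions of a metric line, asymptotic rays (ultrafilter limits of metric segments), support functions with small Laplacian (`sv_lap`),
Calabi-Hopf strong maximum principle (`C/Smp.lean`, helper59: `smp_mfd`) ⟹ `b⁺ + b⁻ = 0` ⟹ the two asymptotic rays at every point fit together to a line.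
PROVED (internal files `R314/Bus/{Met,Hopf,Main,Seg}.lean`).  Further exports there: `bus_hasSeg` (existence of metric segments), `bus_far_line`, `pm_ulim`, `bus_ray`, `bus_supp`.
Consumers: REG' / AFF.
-/

set_option autoImplicit false
set_option linter.unusedSectionVars false
open scoped ContDiff Topology
open Set Filter Claims.C0499 Claimed.Agent.R315

namespace Claimed.Agent.R314

variable {V : Type} [NormedAddCommGroup V] [NormedSpace ℝ V] [FiniteDimensional ℝ V]
variable {n : ℕ} {X : Set V} {g : Ten V}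

/-- **BUS-1** limits of metric segments along the hyperfilter (no subsequences). -/
theorem bus_limit (h : CM n X g) {c : ℕ → ℝ → V} {a b : ℕ → ℝ}
    (hc : ∀ k, IsSeg X g (c k) (Icc (a k) (b k))) {K : Set V} (hK : IsCompact K)
    (h0 : ∀ k, a k ≤ 0 ∧ 0 ≤ b k ∧ c k 0 ∈ K) :
    ∃ c' : ℝ → V, IsSeg X g c' {t | ∀ᶠ k in atTop, a k ≤ t ∧ t ≤ b k} ∧
      ∀ t ∈ {t | ∀ᶠ k in atTop, a k ≤ t ∧ t ≤ b k},
        Tendsto (fun k => c k t) (hyperfilter ℕ : Filter ℕ) (𝓝 (c' t)) := by
  have hm : ∀ k, (0 : ℝ) ∈ Icc (a k) (b k) := fun k => ⟨(h0 k).1, (h0 k).2.1⟩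
  obtain ⟨c', -, h2, h3⟩ := pm_limit (bus_pmet h.busGeo) (hK.inter_right h.closed) inter_subset_right c a b
    (fun k => ⟨(h0 k).2.2, (hc k).1 0 (hm k)⟩) hm hc
  exact ⟨c', h2, h3⟩

/-- **BUS-2** (exit).  A line in a complete manifold with the Laplacian comparison `Δ d(o,·) ≤ (n-1)/d` in the support sense:
there is a `1`-Lipschitz function `b` with `b (c t) = t` such that through every point there is a line along which `b` grows with speed one. -/
theorem bus_main (h : CM n X g)
    (hsv : ∀ o ∈ X, ∀ x ∈ X, o ≠ x → ∃ s : V → ℝ, UpperSupp n X (rdist X g o) s x ∧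
      lap n X g s x ≤ ((n : ℝ) - 1) / rdist X g o x)
    {c : ℝ → V} (hc : IsLine X g c) :
    ∃ b : V → ℝ, Lip1 X g b ∧ (∀ t, b (c t) = t) ∧
      ∀ x ∈ X, ∃ cx : ℝ → V, IsLine X g cx ∧ cx 0 = x ∧ ∀ t, b (cx t) = b x + t := by
  obtain ⟨b, h1, h2, h3⟩ := bus_exit' h.busGeo hsv hc
  exact ⟨b, h1, h3, h2⟩

end Claimed.Agent.R314
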